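import Mathlib

/-!
# P227/M/Dif: the gradient map of a uniformly convex function is a diffeomorphism

`GMap g A a b`: `g` has derivative `A`, `A` continuous, symmetric and
`a |v|^2 <= <A y v, v> <= b |v|^2`.  No potential is needed here.
-/

noncomputable section

open MeasureTheory Set Filter Topology
open scoped RealInnerProductSpace NNReal

namespace Vale.Agent.P227.M.Dif

variable {E : Type*} [NormedAddCommGroup E] [InnerProductSpace ℝ E] [FiniteDimensional ℝ E]

/-- A (symmetric, uniformly elliptic) gradient-like map. -/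
structure GMap (g : E → E) (A : E → E →L[ℝ] E) (a b : ℝ) : Prop where
  pos : 0 < a
  der : ∀ y, HasFDerivAt g (A y) y
  cont : Continuous A
  lower : ∀ y v, a * ‖v‖ ^ 2 ≤ ⟪A y v, v⟫
  upper : ∀ y v, ⟪A y v, v⟫ ≤ b * ‖v‖ ^ 2
  symm : ∀ y v w, ⟪A y v, w⟫ = ⟪v, A y w⟫

namespace GMap

variable {g : E → E} {A : E → E →L[ℝ] E} {a b : ℝ}

omit [FiniteDimensional ℝ E] in
/-- Cauchy-Schwarz for a positive semidefinite operator. -/
lemma cs_op {T : E →L[ℝ] E} (hs : ∀ v w, ⟪T v, w⟫ = ⟪v, T w⟫) (hp : ∀ v, 0 ≤ ⟪T v, v⟫)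
    (v w : E) : ⟪T v, w⟫ ^ 2 ≤ ⟪T v, v⟫ * ⟪T w, w⟫ := by
  have key : ∀ t : ℝ, 0 ≤ ⟪T w, w⟫ * (t * t) + (2 * ⟪T v, w⟫) * t + ⟪T v, v⟫ := by
    intro t
    have h := hp (v + t • w)
    have h2 : ⟪T w, v⟫ = ⟪T v, w⟫ := by
      rw [hs w v, real_inner_comm]
    simp only [map_add, map_smul, inner_add_left, inner_add_right, inner_smul_left,
      inner_smul_right, RCLike.conj_to_real, h2] at h
    linarith
  have h := discrim_le_zero key
  unfold discrim at h
  nlinarith

omit [FiniteDimensional ℝ E] in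
lemma norm_apply_le {T : E →L[ℝ] E} (hs : ∀ v w, ⟪T v, w⟫ = ⟪v, T w⟫)
    (hp : ∀ v, 0 ≤ ⟪T v, v⟫) (hb : ∀ v, ⟪T v, v⟫ ≤ b * ‖v‖ ^ 2) (v : E) :
    ‖T v‖ ≤ b * ‖v‖ := by
  by_cases h0 : T v = 0
  · by_cases hv : v = 0
    · simp [hv]
    · have : 0 ≤ b * ‖v‖ ^ 2 := (hp v).trans (hb v)
      have hv' : 0 < ‖v‖ := norm_pos_iff.2 hv
      rw [h0, norm_zero]
      have : 0 ≤ (b * ‖v‖) * ‖v‖ := by nlinarith
      exact nonneg_of_mul_nonneg_left this hv'
  · have h1 := cs_op hs hp v (T v)
    rw [real_inner_self_eq_norm_sq] at h1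
    have h2 : (‖T v‖ ^ 2) ^ 2 ≤ (b * ‖v‖ ^ 2) * (b * ‖T v‖ ^ 2) := by
      refine h1.trans ?_
      exact mul_le_mul (hb v) (hb _) (hp _) ((hp v).trans (hb v))
    have hT : 0 < ‖T v‖ := norm_pos_iff.2 h0
    have hb0 : 0 ≤ b := by
      have := (hp (T v)).trans (hb (T v))
      exact nonneg_of_mul_nonneg_left this (by positivity)
    have h3 : ‖T v‖ ^ 2 ≤ (b * ‖v‖) ^ 2 := by
      have hT2 : 0 < ‖T v‖ ^ 2 := by positivity
      have : ‖T v‖ ^ 2 * ‖T v‖ ^ 2 ≤ (b * ‖v‖) ^ 2 * ‖T v‖ ^ 2 := by nlinarith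
      exact le_of_mul_le_mul_right this hT2
    exact le_of_sq_le_sq h3 (by positivity)

omit [FiniteDimensional ℝ E] in
lemma nonneg_form (h : GMap g A a b) (y v : E) : 0 ≤ ⟪A y v, v⟫ :=
  le_trans (by have := h.pos; positivity) (h.lower y v)

omit [FiniteDimensional ℝ E] in
lemma norm_A_apply_le (h : GMap g A a b) (y v : E) : ‖A y v‖ ≤ b * ‖v‖ :=
  norm_apply_le (h.symm y) (h.nonneg_form y) (h.upper y) v

omit [FiniteDimensional ℝ E] in
lemma le_norm_A_apply (h : GMap g A a b) (y v : E) : a * ‖v‖ ≤ ‖A y v‖ := by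
  by_cases hv : v = 0
  · simp [hv]
  · have hv' : 0 < ‖v‖ := norm_pos_iff.2 hv
    have h1 := h.lower y v
    have h2 : ⟪A y v, v⟫ ≤ ‖A y v‖ * ‖v‖ := real_inner_le_norm _ _
    have : (a * ‖v‖) * ‖v‖ ≤ ‖A y v‖ * ‖v‖ := by nlinarith
    exact le_of_mul_le_mul_right this hv'

omit [FiniteDimensional ℝ E] in
lemma continuous (h : GMap g A a b) : Continuous g :=
  continuous_iff_continuousAt.2 fun y => (h.der y).continuousAt

omit [FiniteDimensional ℝ E] in
/-- Strong monotonicity. -/
lemma mono (h : GMap g A a b) (y z : E) : a * ‖y - z‖ ^ 2 ≤ ⟪g y - g z, y - z⟫ := by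
  set f : ℝ → ℝ := fun t => ⟪g (z + t • (y - z)), y - z⟫ with hf
  have hder : ∀ t : ℝ, HasDerivAt f ⟪A (z + t • (y - z)) (y - z), y - z⟫ t := by
    intro t
    have h1 : HasDerivAt (fun t : ℝ => z + t • (y - z)) (y - z) t := by
      simpa using ((hasDerivAt_id t).smul_const (y - z)).const_add z
    have h2 : HasDerivAt (fun t : ℝ => g (z + t • (y - z))) (A (z + t • (y - z)) (y - z)) t :=
      (h.der _).comp_hasDerivAt t h1
    have h3 := h2.inner ℝ (hasDerivAt_const t (y - z))
    simpa using h3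
  have hdiff : Differentiable ℝ f := fun t => (hder t).differentiableAt
  have hmv := (convex_Icc (0:ℝ) 1).mul_sub_le_image_sub_of_le_deriv (f := f)
    hdiff.continuous.continuousOn hdiff.differentiableOn (C := a * ‖y - z‖ ^ 2)
    (fun t _ => by rw [(hder t).deriv]; exact h.lower _ _) 0 (by simp) 1 (by simp) zero_le_one
  have e1 : f 1 = ⟪g y, y - z⟫ := by simp [hf]
  have e0 : f 0 = ⟪g z, y - z⟫ := by simp [hf]
  rw [e1, e0] at hmv
  rw [inner_sub_left]
  linarith

omit [FiniteDimensional ℝ E] in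
lemma le_dist (h : GMap g A a b) (y z : E) : a * ‖y - z‖ ≤ ‖g y - g z‖ := by
  by_cases hv : y - z = 0
  · simp [hv]
  · have hv' : 0 < ‖y - z‖ := norm_pos_iff.2 hv
    have h1 := h.mono y z
    have h2 : ⟪g y - g z, y - z⟫ ≤ ‖g y - g z‖ * ‖y - z‖ := real_inner_le_norm _ _
    have : (a * ‖y - z‖) * ‖y - z‖ ≤ ‖g y - g z‖ * ‖y - z‖ := by nlinarith
    exact le_of_mul_le_mul_right this hv'

omit [FiniteDimensional ℝ E] in
lemma dist_le (h : GMap g A a b) (y z : E) : ‖g y - g z‖ ≤ b * ‖y - z‖ := by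
  by_cases hyz : y = z
  · simp [hyz]
  have hb : 0 ≤ b := by
    have h1 := (h.nonneg_form y (y - z)).trans (h.upper y (y - z))
    exact nonneg_of_mul_nonneg_left h1 (by
      have := norm_pos_iff.2 (sub_ne_zero.2 hyz); positivity)
  refine Convex.norm_image_sub_le_of_norm_hasFDerivWithin_le (𝕜 := ℝ) (s := univ)
    (f' := A) (fun x _ => (h.der x).hasFDerivWithinAt) (fun x _ => ?_) convex_univ
    (mem_univ z) (mem_univ y)
  exact ContinuousLinearMap.opNorm_le_bound _ hb (h.norm_A_apply_le x)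

omit [FiniteDimensional ℝ E] in
lemma injective (h : GMap g A a b) : Function.Injective g := by
  intro y z hyz
  have h1 := h.le_dist y z
  rw [hyz, sub_self, norm_zero] at h1
  have h2 : ‖y - z‖ ≤ 0 := by
    by_contra hc
    push Not at hc
    have := mul_pos h.pos hc
    linarith
  exact sub_eq_zero.1 (norm_le_zero_iff.1 h2)

/-- The derivative as an equivalence. -/
def eqv (h : GMap g A a b) (y : E) : E ≃L[ℝ] E :=
  LinearEquiv.toContinuousLinearEquiv
    (LinearEquiv.ofInjectiveEndo (A y : E →ₗ[ℝ] E) (by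
      rw [injective_iff_map_eq_zero]
      intro v hv
      have h1 := h.le_norm_A_apply y v
      have h2 : A y v = 0 := hv
      rw [h2, norm_zero] at h1
      have h3 : ‖v‖ ≤ 0 := by
        by_contra hc
        push Not at hc
        have := mul_pos h.pos hc
        linarith
      exact norm_le_zero_iff.1 h3))

@[simp] lemma eqv_apply (h : GMap g A a b) (y v : E) : h.eqv y v = A y v := rfl

lemma coe_eqv (h : GMap g A a b) (y : E) : (h.eqv y : E →L[ℝ] E) = A y := by
  ext v; rfl

lemma A_symm_apply (h : GMap g A a b) (y v : E) : A y ((h.eqv y).symm v) = v :=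
  (h.eqv y).apply_symm_apply v

lemma symm_A_apply (h : GMap g A a b) (y v : E) : (h.eqv y).symm (A y v) = v :=
  (h.eqv y).symm_apply_apply v

lemma strict (h : GMap g A a b) (y : E) : HasStrictFDerivAt g (h.eqv y : E →L[ℝ] E) y := by
  rw [coe_eqv]
  exact hasStrictFDerivAt_of_hasFDerivAt_of_continuousAt
    (Filter.Eventually.of_forall fun z => h.der z) h.cont.continuousAt

lemma isOpenMap (h : GMap g A a b) : IsOpenMap g :=
  isOpenMap_of_hasStrictFDerivAt_equiv (f' := h.eqv) h.strict

lemma surjective (h : GMap g A a b) : Function.Surjective g := by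
  have hanti : AntilipschitzWith (Real.toNNReal a⁻¹) g := by
    refine AntilipschitzWith.of_le_mul_dist fun y z => ?_
    rw [dist_eq_norm, dist_eq_norm, Real.coe_toNNReal _ (inv_nonneg.2 h.pos.le)]
    have := h.le_dist y z
    rw [inv_mul_eq_div, le_div_iff₀ h.pos]
    linarith
  have huc : UniformContinuous g := by
    have : LipschitzWith (Real.toNNReal b) g := by
      refine LipschitzWith.of_dist_le_mul fun y z => ?_
      rw [dist_eq_norm, dist_eq_norm]
      exact (h.dist_le y z).trans (mul_le_mul_of_nonneg_right (Real.le_coe_toNNReal b)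
        (norm_nonneg _))
    exact this.uniformContinuous
  have hcl : IsClosed (range g) := (hanti.isClosedEmbedding huc).isClosed_range
  have hop : IsOpen (range g) := h.isOpenMap.isOpen_range
  have hclop : IsClopen (range g) := ⟨hcl, hop⟩
  have := hclop.eq_univ ⟨g 0, mem_range_self 0⟩
  exact range_eq_univ.1 this

/-- The inverse map. -/
def inv (h : GMap g A a b) : E → E :=
  (Equiv.ofBijective g ⟨h.injective, h.surjective⟩).symm

lemma g_inv (h : GMap g A a b) (x : E) : g (h.inv x) = x :=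
  (Equiv.ofBijective g ⟨h.injective, h.surjective⟩).apply_symm_apply x

lemma inv_g (h : GMap g A a b) (y : E) : h.inv (g y) = y :=
  (Equiv.ofBijective g ⟨h.injective, h.surjective⟩).symm_apply_apply y

lemma inv_dist_le (h : GMap g A a b) (x z : E) : ‖h.inv x - h.inv z‖ ≤ a⁻¹ * ‖x - z‖ := by
  have := h.le_dist (h.inv x) (h.inv z)
  rw [h.g_inv, h.g_inv] at this
  rw [inv_mul_eq_div, le_div_iff₀ h.pos]
  linarith

lemma continuous_inv (h : GMap g A a b) : Continuous h.inv := by
  have : LipschitzWith (Real.toNNReal a⁻¹) h.inv := by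
    refine LipschitzWith.of_dist_le_mul fun y z => ?_
    rw [dist_eq_norm, dist_eq_norm]
    exact (h.inv_dist_le y z).trans (mul_le_mul_of_nonneg_right (Real.le_coe_toNNReal _)
      (norm_nonneg _))
  exact this.continuous

/-- `g` as a homeomorphism. -/
def homeo (h : GMap g A a b) : E ≃ₜ E where
  toEquiv := Equiv.ofBijective g ⟨h.injective, h.surjective⟩
  continuous_toFun := h.continuous
  continuous_invFun := h.continuous_inv

@[simp] lemma homeo_apply (h : GMap g A a b) (y : E) : h.homeo y = g y := rfl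

@[simp] lemma homeo_symm_apply (h : GMap g A a b) (x : E) : h.homeo.symm x = h.inv x := rfl

lemma inv_strict (h : GMap g A a b) (x : E) :
    HasStrictFDerivAt h.inv ((h.eqv (h.inv x)).symm : E →L[ℝ] E) x := by
  refine HasStrictFDerivAt.of_local_left_inverse h.continuous_inv.continuousAt
    (h.strict (h.inv x)) ?_
  exact Filter.Eventually.of_forall fun z => h.g_inv z

lemma inv_der (h : GMap g A a b) (x : E) :
    HasFDerivAt h.inv ((h.eqv (h.inv x)).symm : E →L[ℝ] E) x :=
  (h.inv_strict x).hasFDerivAt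

/-! ### Determinant and change of variables -/

lemma det_pos (h : GMap g A a b) (y : E) : 0 < (A y).det := by
  -- along `(1 - t) a I + t A`, the determinant never vanishes
  have hne : ∀ t ∈ Icc (0:ℝ) 1,
      ((1 - t) • (a • ContinuousLinearMap.id ℝ E) + t • A y : E →L[ℝ] E).det ≠ 0 := by
    intro t ht
    have hinj : Function.Injective
        ((1 - t) • (a • ContinuousLinearMap.id ℝ E) + t • A y : E →L[ℝ] E) := by
      rw [injective_iff_map_eq_zero]
      intro v hv
      have h1 : ⟪((1 - t) • (a • ContinuousLinearMap.id ℝ E) + t • A y : E →L[ℝ] E) v, v⟫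
          = (1 - t) * (a * ‖v‖ ^ 2) + t * ⟪A y v, v⟫ := by
        simp only [add_apply, smul_apply, ContinuousLinearMap.id_apply, inner_add_left,
          inner_smul_left, RCLike.conj_to_real, real_inner_self_eq_norm_sq]
      rw [hv, inner_zero_left] at h1
      have h2 := h.lower y v
      have h3 : (a * ‖v‖ ^ 2) ≤ (1 - t) * (a * ‖v‖ ^ 2) + t * ⟪A y v, v⟫ := by
        nlinarith [mul_le_mul_of_nonneg_left h2 ht.1]
      have h4 : a * ‖v‖ ^ 2 ≤ 0 := by linarith
      have h5 : ‖v‖ ^ 2 ≤ 0 := by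
        by_contra hc
        push Not at hc
        have := mul_pos h.pos hc
        linarith
      have h6 : ‖v‖ = 0 := by nlinarith [norm_nonneg v]
      exact norm_eq_zero.1 h6
    have := LinearEquiv.isUnit_det' (LinearEquiv.ofInjectiveEndo
      (((1 - t) • (a • ContinuousLinearMap.id ℝ E) + t • A y : E →L[ℝ] E) : E →ₗ[ℝ] E) hinj)
    exact this.ne_zero
  set f : ℝ → ℝ := fun t =>
    ((1 - t) • (a • ContinuousLinearMap.id ℝ E) + t • A y : E →L[ℝ] E).det with hf
  have hcont : Continuous f := by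
    refine ContinuousLinearMap.continuous_det.comp ?_
    fun_prop
  have h0 : 0 < f 0 := by
    have : f 0 = a ^ Module.finrank ℝ E := by
      simp only [hf, sub_zero, one_smul, zero_smul, add_zero]
      rw [ContinuousLinearMap.det]
      rw [show ((a • ContinuousLinearMap.id ℝ E : E →L[ℝ] E) : E →ₗ[ℝ] E)
        = a • (LinearMap.id : E →ₗ[ℝ] E) from rfl, LinearMap.det_smul, LinearMap.det_id, mul_one]
    rw [this]
    exact pow_pos h.pos _
  have h1 : f 1 = (A y).det := by simp [hf]
  rw [← h1]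
  by_contra hc
  push Not at hc
  obtain ⟨t, ht, ht0⟩ : (0:ℝ) ∈ f '' Icc 0 1 :=
    intermediate_value_Icc' zero_le_one hcont.continuousOn ⟨hc, h0.le⟩
  exact hne t ht ht0

variable [MeasurableSpace E] [BorelSpace E]

/-- Change of variables, general form. -/
theorem integral_comp_g {F : Type*} [NormedAddCommGroup F] [NormedSpace ℝ F]
    (h : GMap g A a b) (μ : Measure E) [μ.IsAddHaarMeasure] (G : E → F) :
    ∫ x, G x ∂μ = ∫ y, (A y).det • G (g y) ∂μ := by
  have h1 := integral_image_eq_integral_abs_det_fderiv_smul μ (s := univ) MeasurableSet.univ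
    (f := g) (f' := A) (fun x _ => (h.der x).hasFDerivWithinAt) h.injective.injOn G
  rw [image_univ, h.surjective.range_eq, setIntegral_univ, setIntegral_univ] at h1
  rw [h1]
  refine integral_congr_ae (Filter.Eventually.of_forall fun y => ?_)
  simp only [abs_of_pos (h.det_pos y)]

theorem integrable_comp_g {F : Type*} [NormedAddCommGroup F] [NormedSpace ℝ F]
    (h : GMap g A a b) (μ : Measure E) [μ.IsAddHaarMeasure] (G : E → F) :
    Integrable G μ ↔ Integrable (fun y => (A y).det • G (g y)) μ := by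
  have h1 := integrableOn_image_iff_integrableOn_abs_det_fderiv_smul μ (s := univ)
    MeasurableSet.univ
    (f := g) (f' := A) (fun x _ => (h.der x).hasFDerivWithinAt) h.injective.injOn G
  rw [image_univ, h.surjective.range_eq, integrableOn_univ, integrableOn_univ] at h1
  rw [h1]
  refine integrable_congr (Filter.Eventually.of_forall fun y => ?_)
  simp only [abs_of_pos (h.det_pos y)]

/-- The potential of the law of `g(y)`, `y ~ exp(-phi)`. -/
def pot (h : GMap g A a b) (phi : E → ℝ) (x : E) : ℝ :=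
  phi (h.inv x) + Real.log (A (h.inv x)).det

omit [MeasurableSpace E] [BorelSpace E] in
lemma pot_g (h : GMap g A a b) (phi : E → ℝ) (y : E) :
    h.pot phi (g y) = phi y + Real.log (A y).det := by
  rw [pot, h.inv_g]

omit [MeasurableSpace E] [BorelSpace E] in
lemma exp_neg_pot (h : GMap g A a b) (phi : E → ℝ) (y : E) :
    (A y).det * Real.exp (-(h.pot phi (g y))) = Real.exp (-(phi y)) := by
  have hd := h.det_pos y
  rw [pot_g, neg_add, Real.exp_add, Real.exp_neg (Real.log _), Real.exp_log hd]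
  field_simp

/-- `(g)_* (e^{-phi} dy) = e^{-V} dx`. -/
theorem integral_pot (h : GMap g A a b) (μ : Measure E) [μ.IsAddHaarMeasure]
    (phi : E → ℝ) (G : E → ℝ) :
    ∫ x, G x * Real.exp (-(h.pot phi x)) ∂μ = ∫ y, G (g y) * Real.exp (-(phi y)) ∂μ := by
  rw [h.integral_comp_g μ]
  refine integral_congr_ae (Filter.Eventually.of_forall fun y => ?_)
  simp only [smul_eq_mul]
  rw [← h.exp_neg_pot phi y]
  ring

theorem integrable_pot (h : GMap g A a b) (μ : Measure E) [μ.IsAddHaarMeasure]
    (phi : E → ℝ) (G : E → ℝ) :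
    Integrable (fun x => G x * Real.exp (-(h.pot phi x))) μ ↔
      Integrable (fun y => G (g y) * Real.exp (-(phi y))) μ := by
  rw [h.integrable_comp_g μ]
  refine integrable_congr (Filter.Eventually.of_forall fun y => ?_)
  simp only [smul_eq_mul]
  rw [← h.exp_neg_pot phi y]
  ring

end GMap

end Vale.Agent.P227.M.Dif
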