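import Vale.Agent.P227.M.Dif.Grad

/-!
# P227/M/Dif: the inverse of a `GMap` is a `GMap`
-/

noncomputable section

open MeasureTheory Set Filter Topology
open scoped RealInnerProductSpace NNReal

namespace Vale.Agent.P227.M.Dif

variable {E : Type*} [NormedAddCommGroup E] [InnerProductSpace ℝ E] [FiniteDimensional ℝ E]

namespace GMap

variable {g : E → E} {A : E → E →L[ℝ] E} {a b : ℝ}

/-- The derivative of the inverse map. -/
def iA (h : GMap g A a b) (x : E) : E →L[ℝ] E := ((h.eqv (h.inv x)).symm : E →L[ℝ] E)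

lemma iA_der (h : GMap g A a b) (x : E) : HasFDerivAt h.inv (h.iA x) x := h.inv_der x

lemma A_iA (h : GMap g A a b) (x v : E) : A (h.inv x) (h.iA x v) = v :=
  h.A_symm_apply (h.inv x) v

lemma iA_A (h : GMap g A a b) (x v : E) : h.iA x (A (h.inv x) v) = v :=
  h.symm_A_apply (h.inv x) v

lemma A_iA_g (h : GMap g A a b) (y v : E) : A y (h.iA (g y) v) = v := by
  have := h.A_iA (g y) v
  rwa [h.inv_g] at this

lemma iA_g_A (h : GMap g A a b) (y v : E) : h.iA (g y) (A y v) = v := by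
  have := h.iA_A (g y) (v)
  rwa [h.inv_g] at this

lemma norm_iA_apply_le (h : GMap g A a b) (x v : E) : ‖h.iA x v‖ ≤ a⁻¹ * ‖v‖ := by
  have := h.le_norm_A_apply (h.inv x) (h.iA x v)
  rw [h.A_iA] at this
  rw [inv_mul_eq_div, le_div_iff₀ h.pos]
  linarith

lemma iA_symm (h : GMap g A a b) (x v w : E) : ⟪h.iA x v, w⟫ = ⟪v, h.iA x w⟫ := by
  have h1 := h.symm (h.inv x) (h.iA x v) (h.iA x w)
  rw [h.A_iA, h.A_iA] at h1
  exact h1.symm

lemma iA_upper (h : GMap g A a b) (x v : E) : ⟪h.iA x v, v⟫ ≤ a⁻¹ * ‖v‖ ^ 2 := by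
  have h1 : ⟪h.iA x v, v⟫ ≤ ‖h.iA x v‖ * ‖v‖ := real_inner_le_norm _ _
  have h2 := h.norm_iA_apply_le x v
  nlinarith [norm_nonneg v]

lemma iA_lower (h : GMap g A a b) (hb : 0 < b) (x v : E) : b⁻¹ * ‖v‖ ^ 2 ≤ ⟪h.iA x v, v⟫ := by
  -- `|v|^2 = <A u, v>` with `u = iA v`; `<A u, v>^2 = <A u, A u>^2 <= ...`
  set u := h.iA x v with hu
  have hAu : A (h.inv x) u = v := h.A_iA x v
  have h1 : ‖A (h.inv x) u‖ ^ 2 ≤ b * ⟪A (h.inv x) u, u⟫ := by
    have hcs := cs_op (h.symm (h.inv x)) (h.nonneg_form (h.inv x)) u (A (h.inv x) u)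
    rw [real_inner_self_eq_norm_sq] at hcs
    have hup := h.upper (h.inv x) (A (h.inv x) u)
    have hnn := h.nonneg_form (h.inv x) u
    by_cases h0 : ‖A (h.inv x) u‖ ^ 2 = 0
    · rw [h0]; positivity
    · have hpos : 0 < ‖A (h.inv x) u‖ ^ 2 := lt_of_le_of_ne (by positivity) (Ne.symm h0)
      have h2 : (‖A (h.inv x) u‖ ^ 2) * (‖A (h.inv x) u‖ ^ 2)
          ≤ (b * ⟪A (h.inv x) u, u⟫) * (‖A (h.inv x) u‖ ^ 2) := by
        calc (‖A (h.inv x) u‖ ^ 2) * (‖A (h.inv x) u‖ ^ 2)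
            = (‖A (h.inv x) u‖ ^ 2) ^ 2 := by ring
          _ ≤ ⟪A (h.inv x) u, u⟫ * ⟪A (h.inv x) (A (h.inv x) u), A (h.inv x) u⟫ := hcs
          _ ≤ ⟪A (h.inv x) u, u⟫ * (b * ‖A (h.inv x) u‖ ^ 2) :=
              mul_le_mul_of_nonneg_left hup hnn
          _ = (b * ⟪A (h.inv x) u, u⟫) * (‖A (h.inv x) u‖ ^ 2) := by ring
      exact le_of_mul_le_mul_right h2 hpos
  rw [hAu, real_inner_comm] at h1
  rw [inv_mul_eq_div, div_le_iff₀ hb]
  linarith

lemma continuous_iA (h : GMap g A a b) : Continuous h.iA := by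
  have hcont : Continuous fun x => A (h.inv x) := h.cont.comp h.continuous_inv
  rw [continuous_iff_continuousAt]
  intro x
  have h1 : ∀ z, h.iA z = ContinuousLinearMap.inverse (A (h.inv z)) := by
    intro z
    have : A (h.inv z) = (h.eqv (h.inv z) : E →L[ℝ] E) := (h.coe_eqv _).symm
    rw [this, ContinuousLinearMap.inverse_equiv]
    rfl
  have h2 : ContinuousAt ContinuousLinearMap.inverse (A (h.inv x)) := by
    have : A (h.inv x) = (h.eqv (h.inv x) : E →L[ℝ] E) := (h.coe_eqv _).symm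
    rw [this]
    exact (contDiffAt_map_inverse (𝕜 := ℝ) (n := 0) (h.eqv (h.inv x))).continuousAt
  have h3 : ContinuousAt (fun z => ContinuousLinearMap.inverse (A (h.inv z))) x :=
    ContinuousAt.comp (f := fun z => A (h.inv z)) h2 hcont.continuousAt
  exact h3.congr (Filter.Eventually.of_forall fun z => (h1 z).symm)

/-- The inverse map is again a `GMap`. -/
theorem gmap_inv (h : GMap g A a b) (hb : 0 < b) : GMap h.inv h.iA b⁻¹ a⁻¹ where
  pos := inv_pos.2 hb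
  der := h.iA_der
  cont := h.continuous_iA
  lower := h.iA_lower hb
  upper := h.iA_upper
  symm := h.iA_symm

/-- Lipschitz bound for the inverse derivative. -/
lemma iA_lip (h : GMap g A a b) {M : ℝ} (hM : 0 ≤ M)
    (hA : ∀ y z v, ‖A y v - A z v‖ ≤ M * ‖y - z‖ * ‖v‖) (x z v : E) :
    ‖h.iA x v - h.iA z v‖ ≤ (a⁻¹ ^ 3 * M) * ‖x - z‖ * ‖v‖ := by
  -- `iA x - iA z = iA x (A z - A x) iA z`
  have e : h.iA x v - h.iA z v
      = h.iA x (A (h.inv z) (h.iA z v) - A (h.inv x) (h.iA z v)) := by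
    rw [map_sub, h.iA_A, h.A_iA]
  have ha := h.pos
  have ha' : 0 ≤ a⁻¹ := (inv_pos.2 ha).le
  calc ‖h.iA x v - h.iA z v‖
      = ‖h.iA x (A (h.inv z) (h.iA z v) - A (h.inv x) (h.iA z v))‖ := by rw [e]
    _ ≤ a⁻¹ * ‖A (h.inv z) (h.iA z v) - A (h.inv x) (h.iA z v)‖ := h.norm_iA_apply_le _ _
    _ ≤ a⁻¹ * (M * ‖h.inv z - h.inv x‖ * ‖h.iA z v‖) :=
        mul_le_mul_of_nonneg_left (hA _ _ _) ha'
    _ ≤ a⁻¹ * (M * (a⁻¹ * ‖z - x‖) * (a⁻¹ * ‖v‖)) := by
        refine mul_le_mul_of_nonneg_left ?_ ha'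
        refine mul_le_mul ?_ (h.norm_iA_apply_le _ _) (norm_nonneg _) (by positivity)
        exact mul_le_mul_of_nonneg_left (h.inv_dist_le _ _) hM
    _ = (a⁻¹ ^ 3 * M) * ‖x - z‖ * ‖v‖ := by rw [norm_sub_rev z x]; ring

/-- The inverse map is `C^n` if `g` is. -/
lemma contDiff_inv (h : GMap g A a b) {n : WithTop ℕ∞} (hg : ContDiff ℝ n g) :
    ContDiff ℝ n h.inv := by
  have : ContDiff ℝ n (h.homeo.symm : E → E) := by
    refine h.homeo.contDiff_symm (f₀' := fun y => h.eqv y) (fun y => ?_) hg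
    rw [h.coe_eqv]
    exact h.der y
  exact this

/-- Evenness: `g` odd gives `inv` odd. -/
lemma inv_neg (h : GMap g A a b) (hodd : ∀ y, g (-y) = -g y) (x : E) :
    h.inv (-x) = -h.inv x := by
  apply h.injective
  rw [h.g_inv, hodd, h.g_inv]

lemma iA_neg (h : GMap g A a b) (hodd : ∀ y, g (-y) = -g y) (heven : ∀ y, A (-y) = A y) (x : E) :
    h.iA (-x) = h.iA x := by
  ext v
  have h1 := h.A_iA (-x) v
  rw [h.inv_neg hodd, heven] at h1
  have h2 := h.iA_A x (h.iA (-x) v)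
  rw [h1] at h2
  exact h2.symm

/-- Legendre transform written with the inverse gradient map: `psi x = <x, inv x> - phi (inv x)`
has gradient `inv x`. -/
def leg (h : GMap g A a b) (phi : E → ℝ) (x : E) : ℝ := ⟪x, h.inv x⟫ - phi (h.inv x)

lemma leg_der (h : GMap g A a b) {phi : E → ℝ} (hphi : ∀ y, HasGradientAt phi (g y) y) (x : E) :
    HasGradientAt (h.leg phi) (h.inv x) x := by
  rw [hasGradientAt_iff_hasFDerivAt]
  have h1 : HasFDerivAt (fun z => ⟪z, h.inv z⟫)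
      ((innerSL ℝ x).comp (h.iA x) + (innerSL ℝ (h.inv x))) x := by
    have := (hasFDerivAt_id x).inner ℝ (h.iA_der x)
    refine this.congr_fderiv ?_
    ext v
    simp [fderivInnerCLM_apply, real_inner_comm]
  have h2 : HasFDerivAt (fun z => phi (h.inv z)) ((innerSL ℝ x).comp (h.iA x)) x := by
    have := (hphi (h.inv x)).hasFDerivAt.comp x (h.iA_der x)
    refine this.congr_fderiv ?_
    ext v
    simp [h.g_inv, InnerProductSpace.toDual_apply_apply]
  refine (h1.sub h2).congr_fderiv ?_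
  ext v
  simp [InnerProductSpace.toDual_apply_apply]

end GMap

end Vale.Agent.P227.M.Dif
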